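import Vale.Agent.P090.Main
import Vale.Agent.P090.Indep

namespace Vale.Agent.Results.P090.KaltonBAP

open Vale.Agent.P090

/-- There is a countable uniformly discrete metric space `M` such that, for every choice of the
base point `o`, the Lipschitz-free space `F(M)` fails the bounded approximation property. -/
theorem result : ∃ (M : Type) (_ : MetricSpace M), Nonempty M ∧ Countable M ∧
    UniformlyDiscrete M ∧ ∀ o : M, ¬ HasBAP (LipFree o) := by
  obtain ⟨k, hk, hind⟩ := exists_indep
  obtain ⟨M, m, hne, hc, hd, hb⟩ := main k hk hind
  exact ⟨M, m, hne, hc, ⟨1, one_pos, hd⟩, fun o h => hb o h⟩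

end Vale.Agent.Results.P090.KaltonBAP
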