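import Vale.Agent.P090.FreeIso
import Vale.Agent.P090.Main
import Vale.Agent.P090.Indep

namespace Vale.Agent.Results.P090.KaltonFree

open Vale.Agent.P090

/-- There is a countable uniformly discrete metric space `M` such that, for every choice of the
base point `o`, the Lipschitz-free space `F(M)` (it exists, and whichever model `X` of it is
taken) fails the `lam`-bounded approximation property for every `lam`. -/
theorem result : ∃ (M : Type) (_ : MetricSpace M), Nonempty M ∧ Countable M ∧
    (∃ ε : ℝ, 0 < ε ∧ ∀ x y : M, x ≠ y → ε ≤ dist x y) ∧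
    ∀ o : M,
      (∃ (X : Type) (_ : NormedAddCommGroup X) (_ : NormedSpace ℝ X) (δ : M → X),
        IsFreeSpace o δ) ∧
      ∀ (X : Type) [NormedAddCommGroup X] [NormedSpace ℝ X] (δ : M → X), IsFreeSpace o δ →
        ∀ lam : ℝ, ¬ BAPWith X lam := by
  obtain ⟨k, hk, hind⟩ := exists_indep
  obtain ⟨M, m, hne, hc, hd, hb⟩ := main k hk hind
  refine ⟨M, m, hne, hc, ⟨1, one_pos, hd⟩, fun o => ⟨⟨LipFree o, inferInstance, inferInstance,
    BapAux.dl o, isFreeSpace_dl o⟩, fun X _ _ δ hX lam => ?_⟩⟩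
  refine not_BAPWith_of_isFreeSpace hX fun h => hb o ⟨max 1 lam, le_max_left _ _, ?_⟩
  intro C hC ε hε
  obtain ⟨T, h1, h2, h3⟩ := h C hC ε hε
  exact ⟨T, h1, h2.trans (le_max_right _ _), h3⟩

end Vale.Agent.Results.P090.KaltonFree
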