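import Vale.Agent.P090.FreeIso
import Vale.Agent.P090.MainGen
import Vale.Agent.P090.Indep

namespace Vale.Agent.Results.P090.KaltonStrong

open Vale.Agent.P090

/-- There is a countable metric space `M`, with all distances between distinct points at least
`1`, whose Lipschitz-free space fails the `lam`-bounded approximation property for every `lam`;
and for every `lam` there is a bounded such space whose Lipschitz-free space fails the
`lam`-bounded approximation property. -/
theorem result :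
    (∃ (M : Type) (_ : MetricSpace M), Nonempty M ∧ Countable M ∧
      (∀ x y : M, x ≠ y → 1 ≤ dist x y) ∧
      ∀ o : M,
        (∃ (X : Type) (_ : NormedAddCommGroup X) (_ : NormedSpace ℝ X) (δ : M → X),
          IsFreeSpace o δ) ∧
        ∀ (X : Type) [NormedAddCommGroup X] [NormedSpace ℝ X] (δ : M → X), IsFreeSpace o δ →
          ∀ lam : ℝ, ¬ BAPWith X lam) ∧
    ∀ lam : ℝ, ∃ (M : Type) (_ : MetricSpace M), Nonempty M ∧ Countable M ∧
      (∀ x y : M, x ≠ y → 1 ≤ dist x y) ∧ (∃ D : ℝ, ∀ x y : M, dist x y ≤ D) ∧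
      ∀ o : M,
        (∃ (X : Type) (_ : NormedAddCommGroup X) (_ : NormedSpace ℝ X) (δ : M → X),
          IsFreeSpace o δ) ∧
        ∀ (X : Type) [NormedAddCommGroup X] [NormedSpace ℝ X] (δ : M → X), IsFreeSpace o δ →
          ¬ BAPWith X lam := by
  obtain ⟨k, hk, hind⟩ := exists_indep
  have mono : ∀ (X : Type) [NormedAddCommGroup X] [NormedSpace ℝ X] (a b : ℝ), a ≤ b →
      HasBAPWith X a → HasBAPWith X b := by
    intro X _ _ a b hab h C hC ε hε
    obtain ⟨T, h1, h2, h3⟩ := h C hC ε hε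
    exact ⟨T, h1, h2.trans hab, h3⟩
  constructor
  · obtain ⟨M, m, hne, hc, hd, hb⟩ := main k hk hind
    refine ⟨M, m, hne, hc, hd, fun o => ⟨⟨LipFree o, inferInstance, inferInstance,
      BapAux.dl o, isFreeSpace_dl o⟩, fun X _ _ δ hX lam => ?_⟩⟩
    exact not_BAPWith_of_isFreeSpace hX fun h =>
      hb o ⟨max 1 lam, le_max_left _ _, mono _ _ _ (le_max_right _ _) h⟩
  · intro lam
    obtain ⟨n, hn⟩ := exists_nat_ge (max 0 lam)
    obtain ⟨M, m, hne, hc, hd, hB, hb⟩ := main_gen {n} ⟨n, rfl⟩ k hk hind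
    refine ⟨M, m, hne, hc, hd, hB ⟨n, fun i hi => le_of_eq hi⟩,
      fun o => ⟨⟨LipFree o, inferInstance, inferInstance,
      BapAux.dl o, isFreeSpace_dl o⟩, fun X _ _ δ hX => ?_⟩⟩
    exact not_BAPWith_of_isFreeSpace hX fun h =>
      hb o (max 0 lam) n rfl (le_max_left _ _) hn (mono _ _ _ (le_max_right _ _) h)

end Vale.Agent.Results.P090.KaltonStrong
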